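import Vale.Agent.P307.H304.Unif
import Vale.Agent.P307.H67.Tree

universe u

namespace Vale.Agent.Results.P307.ClubAndTrees

open FirstOrder Cardinal Vale.Agent.P307 Vale.Agent.P307.Gr Vale.Agent.P307.H304
  Vale.Agent.P307.H67

/-- Above `θ` the class `K` is, with its strong substructure relation, the class of all structures
of cardinality at least `θ` which satisfy one complete theory of `L_{∞,θ}`, with elementary
substructures for `L_{∞,θ}`. -/
def InfinitaryAbove {L : Language.{u, u}} (K : AEC L) (θ : Cardinal.{u}) : Prop :=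
  (∃ (M : Type u) (_ : L.Structure M), K.mem M ∧ #M = θ) ∧
  (∀ (M N : Type u) [L.Structure M] [L.Structure N], K.mem M → θ ≤ #M → θ ≤ #N →
    (K.mem N ↔ InfEq L θ M N)) ∧
  (∀ (N : Type u) [L.Structure N] (S : L.Substructure N), K.mem N → θ ≤ #S →
    (K.le S ↔ InfElem L θ S))

/-- `K` has at most one unary function symbol and otherwise only constants and unary predicates, or
all its members are pseudo-forests, or all its members are tree structures. -/
def TreeLike {L : Language.{u, u}} (K : AEC L) : Prop :=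
  OneUnaryFunction L ∨ (∀ (M : Type u) [L.Structure M], K.mem M → IsPseudoForest L M) ∨
    ∃ R : L.Relations 2, ∀ (M : Type u) [L.Structure M], K.mem M → IsTreeStructure R M

/-- (1) From one categoricity cardinal `κ ≥ μ` with `κ ^ μ = κ` to all members `θ` of a closed
unbounded class of cardinals depending only on `l`: the class above `θ` is described by the logic
`L_{∞,θ}`, and it is categorical in `θ` if `θ` has cofinality `ω`.
(2) The conclusion of Q1 if the vocabulary is relational and the Gaifman graph of the model of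
cardinality `κ` contains no subdivision of the complete graph on `κ` vertices.
(3) The same for arbitrary vocabularies.
(4) Q1 for all tree-like classes. -/
theorem result :
    (∀ l : Cardinal.{u}, ∃ μ : Cardinal.{u}, l ≤ μ ∧ ∃ C : Set Cardinal.{u}, IsClub C ∧
      ∀ (L : Language.{u, u}) (K : AEC L), K.LS ≤ l →
        (∃ κ, μ ≤ κ ∧ κ ^ μ = κ ∧ K.CategoricalIn κ) →
        ∀ θ ∈ C, (θ.ord.cof = ℵ₀ → K.CategoricalIn θ) ∧ InfinitaryAbove K θ) ∧
    (∀ l : Cardinal.{u}, ℵ₀ ≤ l → ∃ μ : Cardinal.{u}, l ≤ μ ∧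
      ∀ (L : Language.{u, u}) [L.IsRelational] (K : AEC L), K.LS ≤ l →
        ∀ κ : Cardinal.{u}, μ ≤ κ → K.CategoricalIn κ →
          (∀ (M : Type u) [L.Structure M], K.mem M → #M = κ →
            ¬ HasCompleteSubdivision (gaifman L M) κ) →
          ∀ κ' : Cardinal.{u}, μ ≤ κ' → K.CategoricalIn κ') ∧
    (∀ l : Cardinal.{u}, ℵ₀ ≤ l → ∃ μ : Cardinal.{u}, l ≤ μ ∧
      ∀ (L : Language.{u, u}) (K : AEC L), K.LS ≤ l →
        ∀ κ : Cardinal.{u}, μ ≤ κ → K.CategoricalIn κ →
          (∀ (M : Type u) [L.Structure M], K.mem M → #M = κ →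
            ¬ HasCompleteSubdivision (gaifmanF L M) κ) →
          ∀ κ' : Cardinal.{u}, μ ≤ κ' → K.CategoricalIn κ') ∧
    (∀ l : Cardinal.{u}, ℵ₀ ≤ l → ∃ μ : Cardinal.{u}, l ≤ μ ∧
      ∀ (L : Language.{u, u}) (K : AEC L), K.LS ≤ l → TreeLike K →
        ∀ κ : Cardinal.{u}, μ ≤ κ → K.CategoricalIn κ →
          ∀ κ' : Cardinal.{u}, μ ≤ κ' → K.CategoricalIn κ') := by
  refine ⟨fun l => uniform_club_infinitary l, ?_, all_vocabularies, ?_⟩
  · intro l _
    refine ⟨muG (max l (hanf (2 ^ l))), ?_, ?_⟩
    · have h1 : Order.succ (max l (hanf (2 ^ l))) ≤ thetaG (max l (hanf (2 ^ l))) :=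
        (le_max_right _ _).trans (le_max_right _ _)
      exact (le_max_left l _).trans ((Order.le_succ _).trans (h1.trans
        ((cantor _).le.trans (Order.le_succ _))))
    · intro L _ K hK κ hκ hcat hno κ' hκ'
      exact categorical_transfer' (AEC.isLS_of_LS_le hK) hno hκ hcat hκ'
  · intro l hl
    obtain ⟨μ₁, h1, h1'⟩ := one_unary_function l hl
    obtain ⟨μ₂, h2, h2'⟩ := pseudo_forests l hl
    obtain ⟨μ₃, h3, h3'⟩ := tree_structures l hl
    refine ⟨max μ₁ (max μ₂ μ₃), h1.trans (le_max_left _ _), ?_⟩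
    intro L K hK hT κ hκ hcat κ' hκ'
    rcases hT with hT | hT | ⟨R, hT⟩
    · exact h1' L K hT hK κ ((le_max_left _ _).trans hκ) hcat κ' ((le_max_left _ _).trans hκ')
    · exact h2' L K hT hK κ (((le_max_left _ _).trans (le_max_right _ _)).trans hκ) hcat κ'
        (((le_max_left _ _).trans (le_max_right _ _)).trans hκ')
    · exact h3' L R K hT hK κ (((le_max_right _ _).trans (le_max_right _ _)).trans hκ) hcat κ'
        (((le_max_right _ _).trans (le_max_right _ _)).trans hκ')

end Vale.Agent.Results.P307.ClubAndTrees
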