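import Vale.Agent.P307.H431.Sat
import Vale.Agent.P307.H582.General
import Vale.Agent.P307.H582.ModE

universe u

namespace Vale.Agent.Results.P307.FreeAmalgams

open FirstOrder Cardinal Vale.Agent.P307 Vale.Agent.P307.Gr Vale.Agent.P307.H67
  Vale.Agent.P307.H304 Vale.Agent.P307.H431 Vale.Agent.P307.H582

/-- (1) Q1 is equivalent to downward transfer, and to its non-uniform form.
(2) From one categoricity cardinal `κ ≥ μ` with `κ ^ μ = κ` to all members `θ` of a closed
unbounded class of cardinals depending only on `l`: above `θ` the class is the class of the models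
of one sentence of `L_{∞,θ}`, with elementary substructures for `L_{∞,θ}`; if `θ` has cofinality
`ω`, it is categorical in `θ`, and its model of cardinality `θ` is saturated and homogeneous.
(3) The structure theorem: for a class categorical in some `κ ≥ μ` the following are equivalent, and
they imply categoricity in every `κ' ≥ μ`: the members of cardinality at least `μ` are exactly the
free amalgams of copies of one structure over a part of it; no member contains a subdivided complete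
graph on `μ` vertices; the class is nowhere dense; the model of cardinality `κ` contains no
subdivided complete graph on `κ` vertices; it contains none with paths of bounded length; some
member of cardinality `κ` is a free amalgam of copies of a smaller structure.
(4) Q1 for all classes which are nowhere dense, or closed under disjoint unions of copies, or have
free amalgamation.
(5) Q1 for all classes of modules over a ring which are closed under direct sums of copies of one
member. -/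
theorem result :
    List.TFAE [
      ∀ l : Cardinal.{u}, ℵ₀ ≤ l → ∃ μ : Cardinal.{u}, l ≤ μ ∧
        ∀ (L : Language.{u, u}) (K : AEC L), K.LS ≤ l →
          ∀ κ : Cardinal.{u}, μ ≤ κ → K.CategoricalIn κ →
            ∀ κ' : Cardinal.{u}, μ ≤ κ' → K.CategoricalIn κ',
      ∀ l : Cardinal.{u}, ℵ₀ ≤ l → ∃ μ : Cardinal.{u}, l ≤ μ ∧
        ∀ (L : Language.{u, u}) (K : AEC L), K.LS ≤ l →
          ∀ κ : Cardinal.{u}, μ ≤ κ → K.CategoricalIn κ →
            ∀ κ' : Cardinal.{u}, μ ≤ κ' → κ' ≤ κ → K.CategoricalIn κ',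
      ∀ (L : Language.{u, u}) (K : AEC L),
        (∀ χ : Cardinal.{u}, ∃ κ, χ ≤ κ ∧ K.CategoricalIn κ) →
        ∃ χ : Cardinal.{u}, ∀ κ, χ ≤ κ → K.CategoricalIn κ] ∧
    (∀ l : Cardinal.{u}, ∃ μ : Cardinal.{u}, l ≤ μ ∧ ∃ C : Set Cardinal.{u}, IsClub C ∧
      ∀ (L : Language.{u, u}) (K : AEC L), K.LS ≤ l →
        (∃ κ, μ ≤ κ ∧ κ ^ μ = κ ∧ K.CategoricalIn κ) →
        ∀ θ ∈ C, (θ.ord.cof = ℵ₀ → K.CategoricalIn θ ∧ SaturatedIn K θ ∧ HomogeneousIn K θ) ∧
          AxiomatizedAbove K θ ∧ ∀ (N : Type u) [L.Structure N] (S : L.Substructure N),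
            K.mem N → θ ≤ #S → (K.le S ↔ InfElem L θ S)) ∧
    (∀ l : Cardinal.{u}, ℵ₀ ≤ l → ∃ μ : Cardinal.{u}, l ≤ μ ∧
      ∀ (L : Language.{u, u}) (K : AEC L), K.LS ≤ l →
        ∀ κ : Cardinal.{u}, μ ≤ κ → K.CategoricalIn κ →
          List.TFAE [
            FreelyGenerated K μ,
            ∀ (M : Type u) [L.Structure M], K.mem M → ¬ HasCompleteSubdivision (gaifmanF L M) μ,
            IsNowhereDense K,
            ∀ (M : Type u) [L.Structure M], K.mem M → #M = κ →
              ¬ HasCompleteSubdivision (gaifmanF L M) κ,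
            ∀ (M : Type u) [L.Structure M], K.mem M → #M = κ →
              ∀ n : ℕ, ¬ HasShortSubdivision (gaifmanF L M) κ n,
            ∃ (A M : Type u) (_ : L.Structure A) (_ : L.Structure M) (R : Set A) (V : Type u),
              #A < κ ∧ #M = κ ∧ K.mem M ∧ IsFreeAmalgamOf (L := L) R V M] ∧
          (FreelyGenerated K μ → ∀ κ' : Cardinal.{u}, μ ≤ κ' → K.CategoricalIn κ')) ∧
    (∀ l : Cardinal.{u}, ℵ₀ ≤ l → ∃ μ : Cardinal.{u}, l ≤ μ ∧
      ∀ (L : Language.{u, u}) (K : AEC L), K.LS ≤ l →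
        IsNowhereDense K ∨ ClosedUnderCopies K ∨ (L.IsRelational ∧ HasFreeAmalgamation K) →
        ∀ κ : Cardinal.{u}, μ ≤ κ → K.CategoricalIn κ →
          ∀ κ' : Cardinal.{u}, μ ≤ κ' → K.CategoricalIn κ') ∧
    (∀ l : Cardinal.{u}, ∃ μ : Cardinal.{u}, l ≤ μ ∧
      ∀ (R : Type u) [Ring R] (K : AEC (modLang R)), IsModuleClass R K → K.LS ≤ l →
        ∀ κ : Cardinal.{u}, μ ≤ κ → K.CategoricalIn κ →
          ∀ κ' : Cardinal.{u}, μ ≤ κ' → K.CategoricalIn κ') := by
  refine ⟨q1_tfae, fun l => ?_, fun l hl => ?_, fun l hl => ?_, module_classes⟩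
  · obtain ⟨μ, hμ, C, hC, h⟩ := uniform_club_saturated l
    refine ⟨μ, hμ, C, hC, fun L K hK hcat θ hθ => ?_⟩
    obtain ⟨⟨h1, -, -, h2⟩, h3, h4⟩ := h L K hK hcat θ hθ
    exact ⟨fun hc => ⟨h1 hc, h4 hc⟩, h3, h2⟩
  · refine ⟨muF l, (lt_muF l).le, fun L K hK κ hκ hcat => ?_⟩
    have hLS : K.IsLS l := AEC.isLS_of_LS_le hK
    have h := tfaeL hLS hκ hcat
    refine ⟨?_, fun hF κ' hκ' => categoricalIn_of_fg hLS hκ hcat hF hκ'⟩
    tfae_have 1 ↔ 2 := h.out 0 1
    tfae_have 1 ↔ 3 := h.out 0 2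
    tfae_have 1 ↔ 4 := h.out 0 3
    tfae_have 1 ↔ 5 := h.out 0 4
    tfae_have 1 ↔ 6 := h.out 0 5
    tfae_finish
  · refine ⟨muF l, (lt_muF l).le, fun L K hK hc κ hκ hcat κ' hκ' => ?_⟩
    have hLS : K.IsLS l := AEC.isLS_of_LS_le hK
    refine categoricalIn_of_fg hLS hκ hcat ?_ hκ'
    rcases hc with h1 | h1 | ⟨h0, h1⟩
    · exact ((tfaeL hLS hκ hcat).out 0 2).2 h1
    · exact fg_of_copies hLS h1 hκ hcat
    · exact fg_of_amalgams hLS h1 hκ hcat

end Vale.Agent.Results.P307.FreeAmalgams
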