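import Vale.Agent.P307.H304.Unif
import Vale.Agent.P307.H304.SparseUp
import Vale.Agent.P307.H67.OneShallow

universe u

namespace Vale.Agent.Results.P307.OneMember

open FirstOrder Cardinal Vale.Agent.P307 Vale.Agent.P307.Gr Vale.Agent.P307.H304
  Vale.Agent.P307.H67

/-- Above `θ` the class `K` is, with its strong substructure relation, the class of all structures
of cardinality at least `θ` which satisfy one complete theory of `L_{∞,θ}`, with elementary
substructures for `L_{∞,θ}`. -/
def InfinitaryAbove {L : Language.{u, u}} (K : AEC L) (θ : Cardinal.{u}) : Prop :=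
  (∃ (M : Type u) (_ : L.Structure M), K.mem M ∧ #M = θ) ∧
  (∀ (M N : Type u) [L.Structure M] [L.Structure N], K.mem M → θ ≤ #M → θ ≤ #N →
    (K.mem N ↔ InfEq L θ M N)) ∧
  (∀ (N : Type u) [L.Structure N] (S : L.Substructure N), K.mem N → θ ≤ #S →
    (K.le S ↔ InfElem L θ S))

/-- For every `n` the graph `G` has no subdivision of the complete graph on `l` vertices with all
paths of length at most `n`. -/
def NowhereDense {V : Type u} (G : SimpleGraph V) (l : Cardinal.{u}) : Prop :=
  ∀ n : ℕ, ¬ HasShallowSubdivision G n l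

/-- For some set `Q` of binary relation symbols the structure `M` is laminar over `Q`, and the
Gaifman graph of the symbols outside `Q` is either nowhere dense (with bound `l`), or has only edges
between elements comparable in a tree order `R`. -/
def TreeOrNowhereDense (L : Language.{u, u}) (l : Cardinal.{u}) (M : Type u) [L.Structure M] :
    Prop :=
  ∃ Q : Set (L.Relations 2), IsLaminar Q M ∧
    (NowhereDense (restGraph L Q M) l ∨
    ∃ R : L.Relations 2, IsTreeOrder R M ∧ ∀ x y : M, (restGraph L Q M).Adj x y →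
      Language.Structure.RelMap R ![x, y] ∨ Language.Structure.RelMap R ![y, x])

/-- (1) Q1 for all abstract elementary classes `K` with `LS(K) ≤ l` which have at least one member
of cardinality at least `μ(l)` that is laminar and tree-like or nowhere dense.
(2) The same with one member of cardinality at least `μ(l)` whose class graph, for some set `Q` of
symbols which are equivalence relations on this member, is nowhere dense (for empty `Q` the class
graph is the Gaifman graph).
(3) The same with the model of cardinality `κ`, and no subdivision of the complete graph on `κ`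
vertices in its class graph.
(4) For all classes: from one categoricity cardinal `κ ≥ μ` with `κ ^ μ = κ` to all members `θ` of
a closed unbounded class of cardinals depending only on `l`: the class above `θ` is described by
the logic `L_{∞,θ}`, and it is categorical in `θ` if `θ` has cofinality `ω`. -/
theorem result :
    (∀ l : Cardinal.{u}, ℵ₀ ≤ l → ∃ μ : Cardinal.{u}, l ≤ μ ∧
      ∀ (L : Language.{u, u}) (K : AEC L), K.LS ≤ l →
        (∃ (M : Type u) (_ : L.Structure M), K.mem M ∧ μ ≤ #M ∧ TreeOrNowhereDense L l M) →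
        ∀ κ : Cardinal.{u}, μ ≤ κ → K.CategoricalIn κ →
          ∀ κ' : Cardinal.{u}, μ ≤ κ' → K.CategoricalIn κ') ∧
    (∀ l : Cardinal.{u}, ℵ₀ ≤ l → ∃ μ : Cardinal.{u}, l ≤ μ ∧
      ∀ (L : Language.{u, u}) (K : AEC L), K.LS ≤ l →
        (∃ (Q : Set (L.Relations 2)) (M : Type u) (_ : L.Structure M), K.mem M ∧ μ ≤ #M ∧
          (∀ E ∈ Q, Equivalence fun x y : M => Language.Structure.RelMap E ![x, y]) ∧
          NowhereDense (classGraph L Q M) l) →
        ∀ κ : Cardinal.{u}, μ ≤ κ → K.CategoricalIn κ →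
          ∀ κ' : Cardinal.{u}, μ ≤ κ' → K.CategoricalIn κ') ∧
    (∀ l : Cardinal.{u}, ℵ₀ ≤ l → ∃ μ : Cardinal.{u}, l ≤ μ ∧
      ∀ (L : Language.{u, u}) (K : AEC L), K.LS ≤ l →
        ∀ κ : Cardinal.{u}, μ ≤ κ → K.CategoricalIn κ →
          (∃ (Q : Set (L.Relations 2)) (M : Type u) (_ : L.Structure M), K.mem M ∧ #M = κ ∧
            (∀ E ∈ Q, Equivalence fun x y : M => Language.Structure.RelMap E ![x, y]) ∧
            ¬ HasCompleteSubdivision (classGraph L Q M) κ) →
          ∀ κ' : Cardinal.{u}, μ ≤ κ' → K.CategoricalIn κ') ∧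
    (∀ l : Cardinal.{u}, ∃ μ : Cardinal.{u}, l ≤ μ ∧ ∃ C : Set Cardinal.{u}, IsClub C ∧
      ∀ (L : Language.{u, u}) (K : AEC L), K.LS ≤ l →
        (∃ κ, μ ≤ κ ∧ κ ^ μ = κ ∧ K.CategoricalIn κ) →
        ∀ θ ∈ C, (θ.ord.cof = ℵ₀ → K.CategoricalIn θ) ∧ InfinitaryAbove K θ) := by
  have hsp : SparseUp.{u} := sparse_up
  refine ⟨?_, ?_, ?_, fun l => uniform_club_infinitary l⟩
  · intro l hl
    obtain ⟨μ, hμ, h⟩ := one_member_shallow hsp l hl
    refine ⟨μ, hμ, fun L K hK hT => ?_⟩
    obtain ⟨M, _, hM, hMμ, Q, h1, h2⟩ := hT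
    exact h L K hK ⟨Q, M, inferInstance, hM, hMμ, h1, h2⟩
  · intro l hl
    obtain ⟨μ, hμ, h⟩ := one_shallow_member hsp l hl
    exact ⟨μ, hμ.le, h⟩
  · intro l hl
    obtain ⟨μ, hμ, h⟩ := kappa_member l hl
    exact ⟨μ, hμ.le, h⟩

end Vale.Agent.Results.P307.OneMember
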