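import Vale.Agent.P307.H304.Unif
import Vale.Agent.P307.H304.SparseUp
import Vale.Agent.P307.H67.OneShallow
import Vale.Agent.P307.H67.Thresh
import Vale.Agent.P307.Triv.PAll
import Vale.Agent.P307.H582.General
import Vale.Agent.P307.H582.ModE

universe u

namespace Vale.Agent.Results.P307.Q1Classes

open FirstOrder Cardinal Vale.Agent.P307 Vale.Agent.P307.Gr Vale.Agent.P307.H304
  Vale.Agent.P307.H67 Vale.Agent.P307.Triv Vale.Agent.P307.H582

/-- Above `θ` the class `K` is, with its strong substructure relation, the class of all structures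
of cardinality at least `θ` which satisfy one complete theory of `L_{∞,θ}`, with elementary
substructures for `L_{∞,θ}`. -/
def InfinitaryAbove {L : Language.{u, u}} (K : AEC L) (θ : Cardinal.{u}) : Prop :=
  (∃ (M : Type u) (_ : L.Structure M), K.mem M ∧ #M = θ) ∧
  (∀ (M N : Type u) [L.Structure M] [L.Structure N], K.mem M → θ ≤ #M → θ ≤ #N →
    (K.mem N ↔ InfEq L θ M N)) ∧
  (∀ (N : Type u) [L.Structure N] (S : L.Substructure N), K.mem N → θ ≤ #S →
    (K.le S ↔ InfElem L θ S))

/-- For every `n` the graph `G` has no subdivision of the complete graph on `χ` vertices with all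
paths of length at most `n`. -/
def NowhereDense {V : Type u} (G : SimpleGraph V) (χ : Cardinal.{u}) : Prop :=
  ∀ n : ℕ, ¬ HasShallowSubdivision G n χ

/-- For some set `Q` of binary relation symbols the structure `M` is laminar over `Q`, and the
Gaifman graph of the symbols outside `Q` is either nowhere dense (with bound `χ`), or has only edges
between elements comparable in a tree order `R`. -/
def TreeOrNowhereDense (L : Language.{u, u}) (χ : Cardinal.{u}) (M : Type u) [L.Structure M] :
    Prop :=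
  ∃ Q : Set (L.Relations 2), IsLaminar Q M ∧
    (NowhereDense (restGraph L Q M) χ ∨
    ∃ R : L.Relations 2, IsTreeOrder R M ∧ ∀ x y : M, (restGraph L Q M).Adj x y →
      Language.Structure.RelMap R ![x, y] ∨ Language.Structure.RelMap R ![y, x])

/-- Closures are disintegrated over the substructure `P` of `N`: for each element `a` of `N` there is
a least strong substructure which contains `P` and `a`, and the union of any two strong
substructures which contain `P` is a strong substructure. -/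
def DisintegratedOver {L : Language.{u, u}} (K : AEC L) {N : Type u} [L.Structure N]
    (P : L.Substructure N) : Prop :=
  (∀ a : N, ∃ S : L.Substructure N, K.le S ∧ P ≤ S ∧ a ∈ S ∧
    ∀ T : L.Substructure N, K.le T → P ≤ T → a ∈ T → S ≤ T) ∧
  ∀ S T : L.Substructure N, K.le S → K.le T → P ≤ S → P ≤ T →
    ∃ U : L.Substructure N, K.le U ∧ (U : Set N) = (S : Set N) ∪ T

/-- `K` contains a disjoint union of any number of copies of each of its members of cardinality at
least `χ`. -/
def CopiesAbove {L : Language.{u, u}} (K : AEC L) (χ : Cardinal.{u}) : Prop :=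
  ∀ (A : Type u) [L.Structure A], K.mem A → χ ≤ #A → ∀ V : Type u, Nonempty V →
    ∃ (M : Type u) (_ : L.Structure M), K.mem M ∧ IsFreeAmalgamOf (L := L) (∅ : Set A) V M

/-- `K` has free amalgamation over parts of cardinality at least `χ`: if `N` is the free union of
its substructures `S` and `T` (every point and every related tuple of `N` lies in `S` or in `T`) and
the common part of `S` and `T` has cardinality at least `χ` and is a strong substructure of both,
then `S` is a strong substructure of `N`. -/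
def FreeAmalgamationAbove {L : Language.{u, u}} (K : AEC L) (χ : Cardinal.{u}) : Prop :=
  ∀ (N : Type u) [L.Structure N] (S T : L.Substructure N),
    (∀ x : N, x ∈ S ∨ x ∈ T) →
    (∀ (n : ℕ) (P : L.Relations n) (v : Fin n → N), Language.Structure.RelMap P v →
      (∀ k, v k ∈ S) ∨ ∀ k, v k ∈ T) →
    χ ≤ #(S ⊓ T : L.Substructure N) →
    K.le ((S ⊓ T).comap S.subtype.toHom) → K.le ((S ⊓ T).comap T.subtype.toHom) → K.le S

/-- The conditions, with parameter `χ`, on a class `K` which is categorical in `κ ≥ μ`: in one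
member of cardinality at least `κ` closures are disintegrated over all strong substructures of
cardinality `χ`; or one member of cardinality at least `μ` is laminar and tree-like or nowhere
dense; or one such member has for some set `Q` of symbols which are equivalence relations on it a
nowhere dense class graph; or the class graph of the model of cardinality `κ` contains no
subdivision of the complete graph on `κ` vertices; or `K` contains disjoint unions of any number of
copies of its members of cardinality at least `χ`; or the vocabulary is relational and `K` has free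
amalgamation over parts of cardinality at least `χ`. -/
def Cond {L : Language.{u, u}} (K : AEC L) (χ μ κ : Cardinal.{u}) : Prop :=
  (∃ (M : Type u) (_ : L.Structure M), K.mem M ∧ κ ≤ #M ∧
    ∀ P : L.Substructure M, K.le P → #P = χ → DisintegratedOver K P) ∨
  (∃ (M : Type u) (_ : L.Structure M), K.mem M ∧ μ ≤ #M ∧ TreeOrNowhereDense L χ M) ∨
  (∃ (Q : Set (L.Relations 2)) (M : Type u) (_ : L.Structure M), K.mem M ∧ μ ≤ #M ∧
    (∀ E ∈ Q, Equivalence fun x y : M => Language.Structure.RelMap E ![x, y]) ∧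
    NowhereDense (classGraph L Q M) χ) ∨
  (∃ (Q : Set (L.Relations 2)) (M : Type u) (_ : L.Structure M), K.mem M ∧ #M = κ ∧
    (∀ E ∈ Q, Equivalence fun x y : M => Language.Structure.RelMap E ![x, y]) ∧
    ¬ HasCompleteSubdivision (classGraph L Q M) κ) ∨
  CopiesAbove K χ ∨
  (L.IsRelational ∧ FreeAmalgamationAbove K χ)

/-- The members of `K` of cardinality at least `χ` are `R`-modules, and `K` contains the direct sums
of copies of each of them. -/
def ModulesAbove (R : Type u) [Ring R] (K : AEC (modLang R)) (χ : Cardinal.{u}) : Prop :=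
  (∀ (M : Type u) (s : (modLang R).Structure M), K.mem M → χ ≤ #M →
    ∃ (_ : AddCommGroup M) (_ : Module R M), s = modStr R M) ∧
  ∀ (M V : Type u) [AddCommGroup M] [Module R M] [Nonempty V],
    @AEC.mem _ K M (modStr R M) → χ ≤ #M → @AEC.mem _ K (V →₀ M) (modStr R (V →₀ M))

theorem copies_ge {L : Language.{u, u}} {K : AEC L} {χ : Cardinal.{u}} (hK : K.IsLS χ)
    (h : CopiesAbove K χ) : ClosedUnderCopies (geAEC K χ hK) := by
  intro A _ hA V hV
  obtain ⟨M, _, hM, hF⟩ := h A hA.1 hA.2 V hV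
  refine ⟨M, inferInstance, ⟨hM, hA.2.trans ?_⟩, hF⟩
  obtain ⟨f, -⟩ := hF
  obtain ⟨i⟩ := hV
  exact mk_le_of_injective (f i).injective

theorem amalg_ge {L : Language.{u, u}} {K : AEC L} {χ : Cardinal.{u}} (hK : K.IsLS χ)
    (h : FreeAmalgamationAbove K χ) : HasFreeAmalgamation (geAEC K χ hK) := by
  intro N _ S T h1 h2 h3 h4
  have h5 : χ ≤ #(S ⊓ T : L.Substructure N) := h3.2.trans
    (mk_le_of_injective
      (f := fun x : (S ⊓ T).comap S.subtype.toHom => (⟨x.1.1, x.2⟩ : (S ⊓ T : L.Substructure N)))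
      fun x y hxy => by
        have h := congrArg (fun z : (S ⊓ T : L.Substructure N) => z.1) hxy
        exact Subtype.ext (Subtype.ext h))
  exact ⟨h N S T h1 h2 h5 h3.1 h4.1, h5.trans (mk_sub_le inf_le_left)⟩

theorem modules_ge {R : Type u} [Ring R] {K : AEC (modLang R)} {χ : Cardinal.{u}}
    (hK : K.IsLS χ) (h : ModulesAbove R K χ) : IsModuleClass R (geAEC K χ hK) where
  module := fun M s hM => h.1 M s hM.1 hM.2
  copies := fun M V _ _ _ hM => ⟨h.2 M V hM.1 hM.2, hM.2.trans
    (mk_le_of_injective (Finsupp.single_injective (Classical.arbitrary V)))⟩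

theorem main (l : Cardinal.{u}) (hl : ℵ₀ ≤ l) : ∃ μ : Cardinal.{u}, l ≤ μ ∧
    (∀ (L : Language.{u, u}) (K : AEC L), K.LS ≤ l →
      ∀ κ : Cardinal.{u}, μ ≤ κ → K.CategoricalIn κ → Cond K l μ κ →
        ∀ κ' : Cardinal.{u}, μ ≤ κ' → K.CategoricalIn κ') ∧
    ∀ (R : Type u) [Ring R] (K : AEC (modLang R)), K.LS ≤ l → ModulesAbove R K l →
      ∀ κ : Cardinal.{u}, μ ≤ κ → K.CategoricalIn κ →
        ∀ κ' : Cardinal.{u}, μ ≤ κ' → K.CategoricalIn κ' := by
  have hsp : SparseUp.{u} := sparse_up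
  obtain ⟨μ₁, h₁, g₁⟩ := transferPAll l hl
  obtain ⟨μ₂, h₂, g₂⟩ := one_member_shallow hsp l hl
  obtain ⟨μ₃, h₃, g₃⟩ := one_shallow_member hsp l hl
  obtain ⟨μ₄, h₄, g₄⟩ := kappa_member l hl
  obtain ⟨μ₆, h₆, g₆⟩ := module_classes l
  have m : ∀ {c : Cardinal.{u}},
      max (max μ₁ μ₂) (max (max μ₃ μ₄) (max (muF l) μ₆)) ≤ c →
      μ₁ ≤ c ∧ μ₂ ≤ c ∧ μ₃ ≤ c ∧ μ₄ ≤ c ∧ muF l ≤ c ∧ μ₆ ≤ c := fun h =>
    ⟨(le_max_left _ _).trans ((le_max_left _ _).trans h),
      (le_max_right _ _).trans ((le_max_left _ _).trans h),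
      (le_max_left _ _).trans ((le_max_left _ _).trans ((le_max_right _ _).trans h)),
      (le_max_right _ _).trans ((le_max_left _ _).trans ((le_max_right _ _).trans h)),
      (le_max_left _ _).trans ((le_max_right _ _).trans ((le_max_right _ _).trans h)),
      (le_max_right _ _).trans ((le_max_right _ _).trans ((le_max_right _ _).trans h))⟩
  refine ⟨max (max μ₁ μ₂) (max (max μ₃ μ₄) (max (muF l) μ₆)), h₁.trans (m le_rfl).1, ?_, ?_⟩
  · intro L K hK κ hκ hcat hC κ' hκ'
    obtain ⟨a₁, a₂, a₃, a₄, a₅, -⟩ := m hκ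
    obtain ⟨b₁, b₂, b₃, b₄, b₅, -⟩ := m hκ'
    have hLS : K.IsLS l := AEC.isLS_of_LS_le hK
    have hLS' : (geAEC K l hLS).IsLS l := geAEC_isLS hLS
    have hle : l ≤ κ := h₁.trans a₁
    have hle' : l ≤ κ' := h₁.trans b₁
    rcases hC with hC | ⟨M, _, hM, hMμ, Q, h1, h2⟩ | ⟨Q, M, _, hM, hMμ, h1, h2⟩ | hC | hC |
      ⟨h0, hC⟩
    · exact g₁ L K hK κ a₁ hcat hC κ' b₁
    · exact g₂ L K hK ⟨Q, M, inferInstance, hM, (m hMμ).2.1, h1, h2⟩ κ a₂ hcat κ' b₂
    · exact g₃ L K hK ⟨Q, M, inferInstance, hM, (m hMμ).2.2.1, h1, h2⟩ κ a₃ hcat κ' b₃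
    · exact g₄ L K hK κ a₄ hcat hC κ' b₄
    · have hcat' := (geAEC_categorical_iff hLS hle).2 hcat
      exact (geAEC_categorical_iff hLS hle').1 (categoricalIn_of_fg hLS' a₅ hcat'
        (fg_of_copies hLS' (copies_ge hLS hC) a₅ hcat') b₅)
    · have hcat' := (geAEC_categorical_iff hLS hle).2 hcat
      exact (geAEC_categorical_iff hLS hle').1 (categoricalIn_of_fg hLS' a₅ hcat'
        (fg_of_amalgams hLS' (amalg_ge hLS hC) a₅ hcat') b₅)
  · intro R _ K hK hR κ hκ hcat κ' hκ'
    have hLS : K.IsLS l := AEC.isLS_of_LS_le hK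
    have hle : l ≤ κ := h₁.trans (m hκ).1
    have hle' : l ≤ κ' := h₁.trans (m hκ').1
    exact (geAEC_categorical_iff hLS hle').1 (g₆ R (geAEC K l hLS) (modules_ge hLS hR)
      (csInf_le' (geAEC_isLS hLS)) κ (m hκ).2.2.2.2.2
      ((geAEC_categorical_iff hLS hle).2 hcat) κ' (m hκ').2.2.2.2.2)

/-- There are a function `b` on cardinals and for every infinite cardinal `l` a cardinal
`μ ≥ b l ≥ l` such that the following hold.
(1) If `K` is an abstract elementary class with `LS(K) ≤ l`, categorical in one `κ ≥ b χ` for some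
`χ ≥ l` for which `Cond` holds, then `K` is categorical in all `κ' ≥ μ`. For `χ = l` and `κ ≥ μ`
this is the conclusion of Q1; the cardinal `μ` does not depend on `χ`.
(2) The same for all classes of modules over a ring which contain, for their members of cardinality
at least `χ`, the direct sums of copies.
(3) For all classes: from one categoricity cardinal `κ ≥ μ` with `κ ^ μ = κ` to all members `θ` of
a closed unbounded class of cardinals depending only on `l`: the class above `θ` is described by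
the logic `L_{∞,θ}`, and it is categorical in `θ` if `θ` has cofinality `ω`. -/
theorem result :
    ∃ b : Cardinal.{u} → Cardinal.{u}, ∀ l : Cardinal.{u}, ℵ₀ ≤ l → l ≤ b l ∧
      ∃ μ : Cardinal.{u}, b l ≤ μ ∧
      (∀ (L : Language.{u, u}) (K : AEC L), K.LS ≤ l →
        ∀ χ κ : Cardinal.{u}, l ≤ χ → b χ ≤ κ → K.CategoricalIn κ → Cond K χ (b χ) κ →
          ∀ κ' : Cardinal.{u}, μ ≤ κ' → K.CategoricalIn κ') ∧
      (∀ (R : Type u) [Ring R] (K : AEC (modLang R)), K.LS ≤ l →
        ∀ χ κ : Cardinal.{u}, l ≤ χ → b χ ≤ κ → K.CategoricalIn κ → ModulesAbove R K χ →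
          ∀ κ' : Cardinal.{u}, μ ≤ κ' → K.CategoricalIn κ') ∧
      ∃ C : Set Cardinal.{u}, IsClub C ∧
        ∀ (L : Language.{u, u}) (K : AEC L), K.LS ≤ l →
          (∃ κ, μ ≤ κ ∧ κ ^ μ = κ ∧ K.CategoricalIn κ) →
          ∀ θ ∈ C, (θ.ord.cof = ℵ₀ → K.CategoricalIn θ) ∧ InfinitaryAbove K θ := by
  have hm : ∀ l : Cardinal.{u}, ∃ μ : Cardinal.{u}, ℵ₀ ≤ l → (l ≤ μ ∧
      (∀ (L : Language.{u, u}) (K : AEC L), K.LS ≤ l →
        ∀ κ : Cardinal.{u}, μ ≤ κ → K.CategoricalIn κ → Cond K l μ κ →
          ∀ κ' : Cardinal.{u}, μ ≤ κ' → K.CategoricalIn κ') ∧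
      ∀ (R : Type u) [Ring R] (K : AEC (modLang R)), K.LS ≤ l → ModulesAbove R K l →
        ∀ κ : Cardinal.{u}, μ ≤ κ → K.CategoricalIn κ →
          ∀ κ' : Cardinal.{u}, μ ≤ κ' → K.CategoricalIn κ') := by
    intro l
    by_cases hl : ℵ₀ ≤ l
    · obtain ⟨μ, h⟩ := main l hl
      exact ⟨μ, fun _ => h⟩
    · exact ⟨0, fun h => absurd h hl⟩
  choose b hb using hm
  refine ⟨b, fun l hl => ⟨(hb l hl).1, ?_⟩⟩
  obtain ⟨μ₁, h₁, g₁⟩ := exists_threshold l
  obtain ⟨μ₂, h₂, C, hC, g₂⟩ := uniform_club_infinitary l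
  refine ⟨max (b l) (max μ₁ μ₂), le_max_left _ _, ?_, ?_, C, hC, ?_⟩
  · intro L K hK χ κ hχ hκ hcat hc κ' hκ'
    exact g₁ L K hK ⟨b χ, (hb χ (hl.trans hχ)).2.1 L K (hK.trans hχ) κ hκ hcat hc⟩ κ'
      ((le_max_left _ _).trans ((le_max_right _ _).trans hκ'))
  · intro R _ K hK χ κ hχ hκ hcat hc κ' hκ'
    exact g₁ _ K hK ⟨b χ, (hb χ (hl.trans hχ)).2.2 R K (hK.trans hχ) hc κ hκ hcat⟩ κ'
      ((le_max_left _ _).trans ((le_max_right _ _).trans hκ'))
  · rintro L K hK ⟨κ, hκ, hpow, hcat⟩ θ hθ
    have hle : μ₂ ≤ max (b l) (max μ₁ μ₂) := (le_max_right _ _).trans (le_max_right _ _)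
    have hl0 : ℵ₀ ≤ κ := hl.trans ((hb l hl).1.trans ((le_max_left _ _).trans hκ))
    refine g₂ L K hK ⟨κ, hle.trans hκ, le_antisymm ?_ ?_, hcat⟩ θ hθ
    · exact (power_le_power_left (aleph0_pos.trans_le hl0).ne' hle).trans hpow.le
    · exact self_le_power κ (one_le_aleph0.trans (hl.trans h₂))

end Vale.Agent.Results.P307.Q1Classes
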